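import Vale.Agent.P093.BUc

/-! P093E Cmb. The combinatorial core with a relative cycle as base; a port of `bucI`, `bucI_add`, `bucI_zero`, `bucI_step`, `bucI_bd`, `bu_comb2` in `Vale/Agent/P093/BUc.lean` (reuse `bucS`, `buc_inv`, `buc_B_map`). Helper names start with `cmb_`.
`cmbI I₀ T f N 0 φ = I₀ φ`, the same recursion. In the port of `bucI_bd` the hypothesis `φ [] = 0` becomes: `φ` vanishes on all lists `l` of length `m + k` with `Bd l`; it passes to `bucS (T k) (buP _ _ φ)` with length `m + k - 1` by `buP_zero`, `bT`, `bf`. In the step of `one` the cochain `buC (s (m + k)) (buB s (m + k))` vanishes on the lists of length `m + k + 1` with `Bd l` by `buB_zero` and `bs`. -/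

open Filter Topology Set
open Vale.Agent.P209.C

noncomputable section

namespace Vale.Agent.P093

section

variable {X : Type}

/-- the products of hemispheres with a relative cycle -/
def cmb_I (I₀ : (List X → ZMod 2) → ZMod 2) (T : ℕ → X → X) (f : ℕ → ℕ → X → X) (N : ℕ) :
    ℕ → (List X → ZMod 2) → ZMod 2
  | 0, φ => I₀ φ
  | k + 1, φ => ∑ i ∈ Finset.range N, cmb_I I₀ T f N k (bucS (T k) (buP (f k i) (f k (i + 1)) φ))

variable {I₀ : (List X → ZMod 2) → ZMod 2} {T : ℕ → X → X} {f : ℕ → ℕ → X → X} {N : ℕ}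

theorem cmb_add (Iadd : ∀ φ ψ, I₀ (fun w => φ w + ψ w) = I₀ φ + I₀ ψ) (k : ℕ)
    (φ ψ : List X → ZMod 2) :
    cmb_I I₀ T f N k (fun w => φ w + ψ w) = cmb_I I₀ T f N k φ + cmb_I I₀ T f N k ψ := by
  induction k generalizing φ ψ with
  | zero => exact Iadd φ ψ
  | succ k ih =>
    simp only [cmb_I]
    rw [← Finset.sum_add_distrib]
    refine Finset.sum_congr rfl fun i _ => ?_
    rw [← ih]
    congr 1
    funext w
    simp only [bucS, buP_add]
    ring

theorem cmb_zero (Iadd : ∀ φ ψ, I₀ (fun w => φ w + ψ w) = I₀ φ + I₀ ψ) (k : ℕ) :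
    cmb_I I₀ T f N k (fun _ => 0) = 0 := by
  have h := cmb_add (T := T) (f := f) (N := N) Iadd k (fun _ => 0) fun _ => 0
  simp only [add_zero] at h
  rw [h, bu_two]

theorem cmb_step (Iadd : ∀ φ ψ, I₀ (fun w => φ w + ψ w) = I₀ φ + I₀ ψ) {k : ℕ}
    (h0 : ∀ x, f k 0 x = x) (hN : ∀ x, f k N (T k x) = f k N x) (φ : List X → ZMod 2)
    (h : ∀ i, cmb_I I₀ T f N k (buD (bucS (T k) (buP (f k i) (f k (i + 1)) φ))) = 0) :
    cmb_I I₀ T f N (k + 1) (buD φ) = cmb_I I₀ T f N k (bucS (T k) φ) := by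
  have key : ∀ i, cmb_I I₀ T f N k (bucS (T k) (buP (f k i) (f k (i + 1)) (buD φ))) =
      cmb_I I₀ T f N k (bucS (T k) fun w => φ (w.map (f k (i + 1)))) -
        cmb_I I₀ T f N k (bucS (T k) fun w => φ (w.map (f k i))) := by
    intro i
    rw [CharTwo.sub_eq_add, ← cmb_add Iadd, ← add_zero (cmb_I I₀ T f N k fun w => _ + _),
      ← h i, ← cmb_add Iadd]
    congr 1
    funext w
    unfold bucS
    rw [buD_add, buD_map]
    simp only [buP_buD]
    ring
  simp only [cmb_I, key]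
  rw [Finset.sum_range_sub fun i => cmb_I I₀ T f N k (bucS (T k) fun w => φ (w.map (f k i))),
    CharTwo.sub_eq_add]
  have e1 : (bucS (T k) fun w => φ (w.map (f k N))) = fun _ => 0 := by
    funext w
    have : f k N ∘ T k = f k N := funext hN
    simp only [bucS, List.map_map, this, bu_two]
  have e2 : (fun w : List X => φ (w.map (f k 0))) = φ := by
    funext w
    rw [show f k 0 = id from funext h0, List.map_id]
  rw [e1, e2, cmb_zero Iadd, zero_add]

theorem cmb_van {Bd : List X → Prop} {j : ℕ} {T' f' g' : X → X} {φ : List X → ZMod 2}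
    (bT : ∀ l, Bd l → Bd (l.map T'))
    (bf : ∀ l w, Bd l → (∀ z ∈ w, ∃ x ∈ l, z = f' x ∨ z = g' x) → Bd w)
    (h : ∀ l, l.length = j + 1 → Bd l → φ l = 0) (l : List X) (hl : l.length = j) (hb : Bd l) :
    bucS T' (buP f' g' φ) l = 0 := by
  have key : ∀ l, l.length = j → Bd l → buP f' g' φ l = 0 := fun l hl hb =>
    buP_zero _ _ _ _ fun w hw hz => h w (hl ▸ hw) (bf l w hb hz)
  rw [bucS, key l hl hb, key _ (by rw [List.length_map, hl]) (bT l hb), add_zero]

theorem cmb_bd {m n : ℕ} {Bd : List X → Prop}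
    (Iadd : ∀ φ ψ, I₀ (fun w => φ w + ψ w) = I₀ φ + I₀ ψ)
    (Ibd : ∀ φ, (∀ l, l.length = m → Bd l → φ l = 0) → I₀ (buD φ) = 0)
    (bT : ∀ k l, Bd l → Bd (l.map (T k)))
    (bf : ∀ k i l w, Bd l → (∀ z ∈ w, ∃ x ∈ l, z = f k i x ∨ z = f k (i + 1) x) → Bd w)
    (hT : ∀ k x, T k (T k x) = x) (h0 : ∀ k x, f k 0 x = x)
    (hN : ∀ k < n, ∀ x, f k N (T k x) = f k N x)
    (hc : ∀ k < n, ∀ k' < k, T k' = T k ∨ ((∀ x, T k' (T k x) = T k (T k' x)) ∧
      ∀ i x, T k' (f k i x) = f k i (T k' x))) (k : ℕ) (hk : k ≤ n) (φ : List X → ZMod 2)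
    (h1 : ∀ l, l.length = m + k → Bd l → φ l = 0)
    (h2 : ∀ k' < k, ∀ w : List X, φ (w.map (T k')) = φ w) :
    cmb_I I₀ T f N k (buD φ) = 0 := by
  induction k generalizing φ with
  | zero => exact Ibd φ h1
  | succ k ih =>
    have e2 : bucS (T k) φ = fun _ => 0 := by
      funext w
      rw [bucS, h2 k (by omega), bu_two]
    rw [cmb_step Iadd (h0 k) (hN k hk) φ fun i => ih (by omega) _
      (cmb_van (bT k) (bf k i) h1) fun k' hk' =>
      buc_inv (hT k) ((hc k hk k' hk').imp_right fun h => ⟨h.1, h.2 i, h.2 (i + 1),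
        h2 k' (by omega)⟩), e2, cmb_zero Iadd]

end

theorem bu_comb3 {X : Type} {m n N : ℕ} (I₀ : (List X → ZMod 2) → ZMod 2) (T : ℕ → X → X)
    (f : ℕ → ℕ → X → X) (s : ℕ → X → ZMod 2) (Good : ℕ → List X → Prop) (Bd : List X → Prop)
    (Iadd : ∀ φ ψ, I₀ (fun w => φ w + ψ w) = I₀ φ + I₀ ψ)
    (Ibd : ∀ φ, (∀ l, l.length = m → Bd l → φ l = 0) → I₀ (buD φ) = 0)
    (Ione : I₀ (buB s m) = 1) (Isupp : ∀ φ, (∀ l, Good 0 l → φ l = 0) → I₀ φ = 0)
    (bT : ∀ k l, Bd l → Bd (l.map (T k)))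
    (bf : ∀ k i l w, Bd l → (∀ z ∈ w, ∃ x ∈ l, z = f k i x ∨ z = f k (i + 1) x) → Bd w)
    (bs : ∀ l, Bd l → ∃ i < m, ∀ x ∈ l, ∀ y ∈ l, s i x = s i y)
    (hT : ∀ k x, T k (T k x) = x)
    (h0 : ∀ k x, f k 0 x = x) (hN : ∀ k < n, ∀ x, f k N (T k x) = f k N x)
    (hc : ∀ k < n, ∀ k' < k, T k' = T k ∨ ((∀ x, T k' (T k x) = T k (T k' x)) ∧
      (∀ i x, T k' (f k i x) = f k i (T k' x)) ∧ ∀ x, s (m + k) (T k' x) = s (m + k) x))
    (hs1 : ∀ k < n, ∀ x, s (m + k) (T k x) = s (m + k) x + 1)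
    (hs3 : ∀ k < m + n, ∀ k' < n, ∃ c, ∀ x, s k (T k' x) = s k x + c)
    (gn : ∀ k < n, ∀ l, Good k l → Good k (l.map (T k)))
    (gf : ∀ k < n, ∀ i < N, ∀ l w, Good k l → w.length = l.length + 1 →
      (∀ z ∈ w, ∃ x ∈ l, z = f k i x ∨ z = f k (i + 1) x) → Good (k + 1) w) :
    ∃ l, Good n l ∧ buB s (m + n) l ≠ 0 := by
  have supp : ∀ k ≤ n, ∀ φ, (∀ l, Good k l → φ l = 0) → cmb_I I₀ T f N k φ = 0 := by
    intro k
    induction k with
    | zero => exact fun _ φ h => Isupp φ h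
    | succ k ih =>
      intro hk φ h
      refine Finset.sum_eq_zero fun i hi => ih (by omega) _ fun l hl => ?_
      have key : ∀ l, Good k l → buP (f k i) (f k (i + 1)) φ l = 0 := fun l hl =>
        buP_zero _ _ _ _ fun w hw hz => h w (gf k hk i (Finset.mem_range.1 hi) l w hl hw hz)
      rw [bucS, key l hl, key _ (gn k hk l hl), add_zero]
  have one : ∀ k ≤ n, cmb_I I₀ T f N k (buB s (m + k)) = 1 := by
    intro k
    induction k with
    | zero => exact fun _ => Ione
    | succ k ih =>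
      intro hk
      have hB : ∀ k' < n, ∀ l : List X, buB s (m + k) (l.map (T k')) = buB s (m + k) l :=
        fun k' hk' l => buc_B_map s (m + k) (fun i hi => hs3 i (by omega) k' hk') l
      have h1 : bucS (T k) (buC (s (m + k)) (buB s (m + k))) = buB s (m + k) := by
        funext l
        match l with
        | [] => cases (m + k) <;> rfl
        | x :: l =>
          have h2 := hB k hk (x :: l)
          rw [List.map_cons] at h2
          simp only [bucS, buC, List.map_cons]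
          rw [h2, hs1 k hk x]
          linear_combination bu_two (s (m + k) x * buB s (m + k) (x :: l))
      rw [← add_assoc, buB, cmb_step Iadd (h0 k) (hN k hk), h1, ih (by omega)]
      intro i
      refine cmb_bd Iadd Ibd bT bf hT h0 hN
        (fun k hk k' hk' => (hc k hk k' hk').imp_right fun h => ⟨h.1, h.2.1⟩)
        k (by omega) _ (cmb_van (bT k) (bf k i) fun l hl hb => ?_) fun k' hk' =>
          buc_inv (hT k) ((hc k hk k' hk').imp_right
          fun h => ⟨h.1, h.2.1 i, h.2.1 (i + 1), fun w => ?_⟩)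
      · obtain ⟨j, hj, h3⟩ := bs l hb
        have h4 := buB_zero s (m + k) l hl ⟨j, by omega, h3⟩
        match l, h4 with
        | [], _ => rfl
        | x :: l, h4 => rw [buC, h4, mul_zero]
      · match w with
        | [] => rfl
        | x :: l =>
          have h2 := hB k' (by omega) (x :: l)
          rw [List.map_cons] at h2
          simp only [buC, List.map_cons]
          rw [h2, h.2.2]
  by_contra hcon
  push Not at hcon
  exact zero_ne_one ((supp n le_rfl _ hcon).symm.trans (one n le_rfl))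

end Vale.Agent.P093
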