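import Vale.Agent.P209N.C.BU
import Vale.Agent.P093E.Defs

/-! P093E Lst (TASK). From tuples to lists. Helper names start with `lst_`.
`z' = z.map List.ofFn`. `lst_D`: `buD φ (List.ofFn x) = ∑ j : Fin (m + 1), φ (List.ofFn fun i => x (j.succAbove i))`, by induction on `m` generalizing `φ` (`List.ofFn_succ`, `Fin.sum_univ_succ`, `Fin.succAbove_zero`, `Fin.succ_succAbove_zero`, `Fin.succ_succAbove_succ`). `lst_B`: `buB s m (List.ofFn x) = ∏ i : Fin m, (s i.rev (x i.castSucc) + s i.rev (x i.succ))`, by induction on `m` (`buB_cons`, `Fin.prod_univ_succ`, `Fin.val_rev`; it is easier to state it with `s (m - 1 - i)` or `s (m - (i + 1))`). `List.mem_ofFn`, `List.map_map`, `List.length_ofFn`. -/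

open Filter Topology Set
open Vale.Agent.P209.C

noncomputable section

namespace Vale.Agent.P093

theorem lst_D {X : Type} (m : ℕ) (φ : List X → ZMod 2) (x : Fin (m + 1) → X) :
    buD φ (List.ofFn x) = ∑ j : Fin (m + 1), φ (List.ofFn fun i => x (j.succAbove i)) := by
  induction m generalizing φ with
  | zero =>
    rw [List.ofFn_succ, List.ofFn_zero, Fin.sum_univ_succ, Fin.sum_univ_zero, List.ofFn_zero]
    rfl
  | succ m ih =>
    have e : buD φ (List.ofFn x) = φ (List.ofFn fun i : Fin (m + 1) => x i.succ) +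
        buD (fun w => φ (x 0 :: w)) (List.ofFn fun i : Fin (m + 1) => x i.succ) := by
      rw [List.ofFn_succ]
      rfl
    rw [e, ih, Fin.sum_univ_succ (n := m + 1)]
    simp only [Fin.succAbove_zero]
    refine congrArg _ (Finset.sum_congr rfl fun j _ => ?_)
    rw [List.ofFn_succ (f := fun i => x (j.succ.succAbove i))]
    simp only [Fin.succ_succAbove_zero, Fin.succ_succAbove_succ]

theorem lst_B {X : Type} (s : ℕ → X → ZMod 2) (m : ℕ) (x : Fin (m + 1) → X) :
    buB s m (List.ofFn x) = ∏ i : Fin m, (s i.rev (x i.castSucc) + s i.rev (x i.succ)) := by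
  induction m with
  | zero =>
    rw [List.ofFn_succ, List.ofFn_zero, Fin.prod_univ_zero]
    rfl
  | succ m ih =>
    have e : List.ofFn x = x 0 :: x 1 :: List.ofFn fun i : Fin m => x i.succ.succ := by
      rw [List.ofFn_succ, List.ofFn_succ]
      rfl
    have e' : List.ofFn (fun i : Fin (m + 1) => x i.succ) =
        x 1 :: List.ofFn fun i : Fin m => x i.succ.succ := by
      rw [List.ofFn_succ]
      rfl
    rw [e, buB_cons, ← e', ih, Fin.prod_univ_succ]
    refine congrArg₂ _ rfl (Finset.prod_congr rfl fun i _ => ?_)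
    rw [Fin.rev_succ, Fin.val_castSucc, Fin.succ_castSucc]

theorem ess_list {X : Type} [MetricSpace X] {m : ℕ} {A B : Fin m → Set X} (h : Ess A B) {δ : ℝ}
    (hδ : 0 < δ) : ∃ z : List (List X),
      (∀ l ∈ z, l.length = m + 1 ∧ ∀ x ∈ l, ∀ y ∈ l, dist x y < δ) ∧
      (∀ φ : List X → ZMod 2, (∀ l, l.length = m →
        (∃ i, (∀ x ∈ l, x ∈ A i) ∨ ∀ x ∈ l, x ∈ B i) → φ l = 0) → (z.map (buD φ)).sum = 0) ∧
      ∀ s : ℕ → X → ZMod 2, (∀ i : Fin m, ∀ a ∈ A i, s i.rev a = 0) →
        (∀ i : Fin m, ∀ b ∈ B i, s i.rev b = 1) → (z.map (buB s m)).sum = 1 := by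
  obtain ⟨z, h1, h2, h3⟩ := h δ hδ
  refine ⟨z.map List.ofFn, fun l hl => ?_, fun φ hφ => ?_, fun s s0 s1 => ?_⟩
  · obtain ⟨x, hx, rfl⟩ := List.mem_map.1 hl
    refine ⟨List.length_ofFn, fun a ha b hb => ?_⟩
    obtain ⟨i, rfl⟩ := List.mem_ofFn.1 ha
    obtain ⟨j, rfl⟩ := List.mem_ofFn.1 hb
    exact h1 x hx i j
  · rw [List.map_map, ← h2 (fun y => φ (List.ofFn y)) fun y i hy => ?_]
    · exact congrArg _ (List.map_congr_left fun x _ => lst_D m φ x)
    · refine hφ _ List.length_ofFn ⟨i, hy.imp (fun hc a ha => ?_) fun hc a ha => ?_⟩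
      · obtain ⟨j, rfl⟩ := List.mem_ofFn.1 ha
        exact hc j
      · obtain ⟨j, rfl⟩ := List.mem_ofFn.1 ha
        exact hc j
  · rw [List.map_map, ← h3 (fun i => s i.rev) s0 s1]
    exact congrArg _ (List.map_congr_left fun x _ => lst_B s m x)

end Vale.Agent.P093
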