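import Vale.Agent.P093.BUb
import Vale.Agent.P093E.Cmb
import Vale.Agent.P093E.Lst

/-! P093E Blk (TASK). Block form with an essential parameter space; a port of `bub_s`, `bub_comb` (`Vale/Agent/P093/BUa.lean`) and `bu_blocks` (`P093/BUb.lean`). Helper names start with `blk_`.
Work on `Y = X × {y // bubNZ fac y}`; `T k`, `f k i` act on the second component (`Prod.map id`), `I₀ φ = (z.map fun l => φ (l.map fun x => (x, e))).sum` with `z` from `ess_list` (`buD_map`; `buB s m (l.map g) = buB (fun k x => s k (g x)) m l` by induction or `buD_map`), `Bd l = ∃ i, (∀ y ∈ l, y.1 ∈ A i) ∨ ∀ y ∈ l, y.1 ∈ B i`, `Good k l` = length `m + k + 1`, the old conditions for the second components, and `dist x.1 y.1 < δ` for `x, y ∈ l`.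
Signs: for `k < m` and `i = Fin.rev ⟨k, _⟩`, `s k y = if 0 < R y.1 y.2 i then 1 else if R y.1 y.2 i < 0 then 0 else if y.1 ∈ B i then 1 else 0` (invariant under the flips, `0` on `A i`, `1` on `B i`); `s (m + k)` as in `bub_s` with `χ k a = if a ≠ fac k ∧ ∀ x y, F x (flp fac a y) k = F x y k then 0 else 1`.
If there is no zero, the norm of `(R, F)` (or of `Sum.elim (R x y) (F x y)`) is at least `c > 0` on the compact set `univ ×ˢ bubK fac`; uniform continuity (`bub_unif`) and `buB_zero` as in `bu_blocks`. -/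

open Filter Topology Set
open Vale.Agent.P209.C

noncomputable section

namespace Vale.Agent.P093

theorem blk_D {X Y : Type} (g : X → Y) (φ : List Y → ZMod 2) (l : List X) :
    buD (fun w => φ (w.map g)) l = buD φ (l.map g) := by
  induction l generalizing φ with
  | nil => simp [buD]
  | cons x l ih => simp only [buD, List.map_cons]; rw [← ih]

theorem blk_B {X Y : Type} (g : X → Y) (s : ℕ → Y → ZMod 2) (k : ℕ) (l : List X) :
    buB s k (l.map g) = buB (fun k x => s k (g x)) k l := by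
  induction k generalizing l with
  | zero =>
    simp only [buB]
    rw [← blk_D]
    simp only [List.length_map]
  | succ k ih =>
    simp only [buB]
    rw [← blk_D]
    refine congrArg (fun φ => buD φ l) (funext fun w => ?_)
    cases w with
    | nil => rfl
    | cons x w => exact congrArg (s k (g x) * ·) (ih (x :: w))

section

variable {C : Type} [Fintype C] [DecidableEq C] {n : ℕ} {fac : Fin n → C}

/-- The conditions on the second components. -/
def blk_G (N k : ℕ) (l : List {y // bubNZ fac y}) : Prop :=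
  (∀ x ∈ l, x.1 ∈ bubK fac ∧ ∀ j : Fin n, k ≤ j.val → x.1 (.inl j) = 0) ∧
    ∀ x ∈ l, ∀ y ∈ l, ‖x.1 - y.1‖ ≤ k * (2 / N)

theorem blk_gn {N k : ℕ} {l : List {y // bubNZ fac y}} (h : blk_G N k l) (a : C) :
    blk_G N k (l.map (bubT a)) := by
  refine ⟨fun x hx => ?_, fun x hx y hy => ?_⟩
  · obtain ⟨y, hy, rfl⟩ := List.mem_map.1 hx
    refine ⟨fun a => ?_, fun j hj => ?_⟩
    · simpa only [bubT, bub_abs] using (h.1 y hy).1 a
    · rw [← abs_eq_zero]
      simp only [bubT, bub_abs, (h.1 y hy).2 j hj, abs_zero]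
  · obtain ⟨x, hx', rfl⟩ := List.mem_map.1 hx
    obtain ⟨y, hy', rfl⟩ := List.mem_map.1 hy
    refine le_trans ((pi_norm_le_iff_of_nonneg (norm_nonneg _)).2 fun i => ?_)
      (h.2 x hx' y hy')
    refine le_of_eq_of_le ?_ (norm_le_pi_norm (x.1 - y.1) i)
    simp only [bubT, flp, Pi.sub_apply]
    split_ifs
    · rw [neg_sub_neg, norm_sub_rev]
    · rfl

theorem blk_gf {N m i : ℕ} (N0 : (0 : ℝ) < N) (hm : m < n) (hi : i < N)
    {l w : List {y // bubNZ fac y}} (h : blk_G N m l)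
    (hz : ∀ z ∈ w, ∃ x ∈ l, z = bubF ⟨m, hm⟩ ((i : ℝ) / N) x ∨
      z = bubF ⟨m, hm⟩ (((i + 1 : ℕ) : ℝ) / N) x) : blk_G N (m + 1) w := by
  have i0 : (0 : ℝ) ≤ i / N := by positivity
  have i1 : (i : ℝ) / N + 1 / N ≤ 1 := by
    rw [← add_div, div_le_one N0]
    exact_mod_cast hi
  have key : ∀ z ∈ w, ∃ x ∈ l, ∃ τ : ℝ, (i : ℝ) / N ≤ τ ∧ τ ≤ i / N + 1 / N ∧
      z.1 = bubMv fac ⟨m, hm⟩ τ x.1 ∧ z.1 ∈ bubK fac := fun z hz' => by
    have k2 : ∀ x ∈ l, ∀ τ : ℝ, (i : ℝ) / N ≤ τ → τ ≤ i / N + 1 / N → z = bubF ⟨m, hm⟩ τ x →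
        z.1 = bubMv fac ⟨m, hm⟩ τ x.1 ∧ z.1 ∈ bubK fac := fun x hx τ t1 t2 e => by
      have k3 := bubK_mv (h.1 x hx).1 ((h.1 x hx).2 ⟨m, hm⟩ le_rfl) (i0.trans t1)
        (t2.trans i1)
      rw [e, bubF, dif_pos (bubK_nz k3)]
      exact ⟨rfl, k3⟩
    obtain ⟨x, hx, h1 | h1⟩ := hz z hz'
    · have t2 : (i : ℝ) / N ≤ i / N + 1 / N := le_add_of_nonneg_right (by positivity)
      exact ⟨x, hx, _, le_rfl, t2, k2 x hx _ le_rfl t2 h1⟩
    · have t1 : (i : ℝ) / N ≤ ((i + 1 : ℕ) : ℝ) / N := by gcongr; omega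
      have t2 : ((i + 1 : ℕ) : ℝ) / N ≤ i / N + 1 / N := by push_cast; rw [add_div]
      exact ⟨x, hx, _, t1, t2, k2 x hx _ t1 t2 h1⟩
  refine ⟨fun z hz' => ?_, fun z hz' z' hz'' => ?_⟩
  · obtain ⟨x, hx, τ, -, -, e, hK'⟩ := key z hz'
    refine ⟨hK', fun j hj => ?_⟩
    have hj' : (Sum.inl j : Fin n ⊕ C) ≠ .inl ⟨m, hm⟩ := fun h' => by
      have := congrArg Fin.val (Sum.inl_injective h')
      simp only at this
      omega
    rw [e, bubMv, (h.1 x hx).2 j (by omega), if_neg hj']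
    simp
  · obtain ⟨x, hx, τ, t1, t2, e, -⟩ := key z hz'
    obtain ⟨y, hy, τ', t1', t2', e', -⟩ := key z' hz''
    rw [e, e']
    refine (bub_dist (η := 1 / N) (h.1 y hy).1 _ (i0.trans t1) (t2.trans i1)
      (abs_le.2 ⟨by linarith, by linarith⟩)).trans ?_
    have : ((m + 1 : ℕ) : ℝ) * (2 / N) = m * (2 / N) + 1 / N * 2 := by push_cast; ring
    linarith [h.2 x hx y hy]

theorem blk_comb {X : Type} [MetricSpace X] {m : ℕ} {A B : Fin m → Set X} (hE : Ess A B)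
    {δ : ℝ} (hδ : 0 < δ) {N : ℕ} (N0 : (0 : ℝ) < N) (s : ℕ → X × {y // bubNZ fac y} → ZMod 2)
    (sA : ∀ (i : Fin m) y, y.1 ∈ A i → s i.rev y = 0)
    (sB : ∀ (i : Fin m) y, y.1 ∈ B i → s i.rev y = 1)
    (sT : ∀ k < m, ∀ a y, s k (y.1, bubT a y.2) = s k y) (χ : Fin n → C → ZMod 2)
    (hs : ∀ (k : Fin n) a y, s (m + k) (y.1, bubT a y.2) = s (m + k) y + χ k a)
    (χ1 : ∀ k, χ k (fac k) = 1) (χ0 : ∀ k k', k' < k → fac k' ≠ fac k → χ k (fac k') = 0) :
    ∃ l : List (X × {y // bubNZ fac y}), (l.length = m + n + 1 ∧ blk_G N n (l.map Prod.snd) ∧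
      ∀ x ∈ l, ∀ y ∈ l, dist x.1 y.1 < δ) ∧ buB s (m + n) l ≠ 0 := by
  have e0 : (Sum.elim (fun _ => 0) fun _ => 1 : Fin n ⊕ C → ℝ) ∈ bubK fac := fun a => by
    simp [Fintype.sum_sum_type]
  obtain ⟨z, z1, z2, z3⟩ := ess_list hE hδ
  let e : {y // bubNZ fac y} := ⟨_, bubK_nz e0⟩
  let g : X → X × {y // bubNZ fac y} := fun x => (x, e)
  exact bu_comb3 (X := X × {y // bubNZ fac y}) (m := m) (n := n) (N := N)
    (fun φ => (z.map fun l => φ (l.map g)).sum)
    (fun k x => (x.1, if h : k < n then bubT (fac ⟨k, h⟩) x.2 else x.2))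
    (fun k i x => (x.1, if h : k < n then bubF ⟨k, h⟩ ((i : ℝ) / N) x.2 else x.2)) s
    (fun k l => l.length = m + k + 1 ∧ blk_G N k (l.map Prod.snd) ∧
      ∀ x ∈ l, ∀ y ∈ l, dist x.1 y.1 < δ)
    (fun l => ∃ i, (∀ y ∈ l, y.1 ∈ A i) ∨ ∀ y ∈ l, y.1 ∈ B i)
    (fun φ ψ => List.sum_map_add)
    (fun φ h => by
      simp only [← blk_D]
      refine z2 _ fun l hl ⟨i, hi⟩ => h _ (by rw [List.length_map, hl]) ⟨i, ?_⟩
      simpa only [List.forall_mem_map] using hi)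
    (by
      simp only [blk_B]
      exact z3 _ (fun i a ha => sA i _ ha) fun i b hb => sB i _ hb)
    (fun φ h => by
      refine List.sum_eq_zero fun c hc => ?_
      obtain ⟨l, hl, rfl⟩ := List.mem_map.1 hc
      refine h _ ⟨by rw [List.length_map, (z1 l hl).1], ⟨?_, ?_⟩, ?_⟩
      · simp only [List.forall_mem_map]
        exact fun x _ => ⟨e0, fun j _ => rfl⟩
      · simp only [List.forall_mem_map]
        intro x _ y _
        simp [g]
      · simp only [List.forall_mem_map]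
        exact (z1 l hl).2)
    (fun k l ⟨i, hi⟩ => ⟨i, by simpa only [List.forall_mem_map] using hi⟩)
    (fun k i l w ⟨j, hj⟩ hz => ⟨j, hj.imp
      (fun h y hy => by
        obtain ⟨x, hx, rfl | rfl⟩ := hz y hy <;> exact h x hx)
      fun h y hy => by
        obtain ⟨x, hx, rfl | rfl⟩ := hz y hy <;> exact h x hx⟩)
    (fun l ⟨i, hi⟩ => ⟨i.rev, i.rev.2, fun x hx y hy => by
      rcases hi with h | h
      · rw [sA i x (h x hx), sA i y (h y hy)]
      · rw [sB i x (h x hx), sB i y (h y hy)]⟩)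
    (fun k x => by
      refine Prod.ext rfl ?_
      simp only
      split_ifs
      · exact Subtype.ext (bub_flp _ _)
      · rfl)
    (fun k x => by simp [bubF_zero])
    (fun k hk x => by simp only [dif_pos hk, div_self N0.ne', bubF_one])
    (fun k hk k' hk' => by
      simp only [dif_pos hk, dif_pos (hk'.trans hk)]
      by_cases h : fac ⟨k', hk'.trans hk⟩ = fac ⟨k, hk⟩
      · exact Or.inl (by rw [h])
      · refine Or.inr ⟨fun x => Prod.ext rfl (Subtype.ext (bub_comm _ _ _)),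
          fun i x => Prod.ext rfl (bubT_F h _ _), fun x => ?_⟩
        exact (hs ⟨k, hk⟩ _ x).trans (by rw [χ0 _ _ hk' h, add_zero]))
    (fun k hk x => by
      simp only [dif_pos hk]
      exact (hs ⟨k, hk⟩ _ x).trans (by rw [χ1]))
    (fun k hk k' hk' => by
      simp only [dif_pos hk']
      rcases lt_or_ge k m with h | h
      · exact ⟨0, fun x => by rw [sT k h, add_zero]⟩
      · obtain ⟨j, rfl⟩ := Nat.exists_eq_add_of_le h
        exact ⟨_, hs ⟨j, by omega⟩ _⟩)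
    (fun k hk l h => by
      simp only [dif_pos hk]
      refine ⟨by rw [List.length_map, h.1], ?_, by simpa only [List.forall_mem_map] using h.2.2⟩
      have := blk_gn h.2.1 (fac ⟨k, hk⟩)
      rw [List.map_map] at this ⊢
      exact this)
    (fun k hk i hi l w h hw hz => by
      simp only [dif_pos hk] at hz
      refine ⟨by rw [hw, h.1]; rfl, blk_gf N0 hk hi h.2.1 fun y hy => ?_, fun x hx y hy => ?_⟩
      · obtain ⟨y, hy', rfl⟩ := List.mem_map.1 hy
        obtain ⟨x, hx, h1⟩ := hz y hy'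
        exact ⟨x.2, List.mem_map_of_mem hx, h1.imp (congrArg Prod.snd) (congrArg Prod.snd)⟩
      · obtain ⟨x', hx', h1⟩ := hz x hx
        obtain ⟨y', hy', h2⟩ := hz y hy
        have e1 : x.1 = x'.1 := by rcases h1 with rfl | rfl <;> rfl
        have e2 : y.1 = y'.1 := by rcases h2 with rfl | rfl <;> rfl
        rw [e1, e2]
        exact h.2.2 _ hx' _ hy')

theorem blk_s {X : Type} (F : X → (Fin n ⊕ C → ℝ) → Fin n → ℝ)
    (h1 : ∀ k a, (∀ x y, F x (flp fac a y) k = F x y k) ∨ ∀ x y, F x (flp fac a y) k = -F x y k)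
    (h2 : ∀ k x y, F x (flp fac (fac k) y) k = -F x y k)
    (h3 : ∀ k k', k' < k → fac k' ≠ fac k → ∀ x y, F x (flp fac (fac k') y) k = F x y k) :
    ∃ (s : Fin n → X × {y // bubNZ fac y} → ZMod 2) (χ : Fin n → C → ZMod 2),
      (∀ k a y, s k (y.1, bubT a y.2) = s k y + χ k a) ∧ (∀ k, χ k (fac k) = 1) ∧
      (∀ k k', k' < k → fac k' ≠ fac k → χ k (fac k') = 0) ∧
      (∀ k y, 0 < F y.1 y.2.1 k → s k y = 1) ∧ ∀ k y, F y.1 y.2.1 k < 0 → s k y = 0 := by
  classical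
  let χ : Fin n → C → ZMod 2 := fun k a =>
    if a ≠ fac k ∧ ∀ x y, F x (flp fac a y) k = F x y k then 0 else 1
  choose sg hsg using fun k => bub_sign (fac := fac) (χ k)
  let s : Fin n → X × {y // bubNZ fac y} → ZMod 2 := fun k y =>
    if 0 < F y.1 y.2.1 k then 1 else if F y.1 y.2.1 k < 0 then 0 else sg k y.2
  have hs : ∀ k a y, s k (y.1, bubT a y.2) = s k y + χ k a := by
    intro k a y
    by_cases h : a ≠ fac k ∧ ∀ x y, F x (flp fac a y) k = F x y k
    · have e : F y.1 (bubT a y.2).1 k = F y.1 y.2.1 k := h.2 _ _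
      simp only [s, e, hsg, χ, if_pos h, add_zero]
    · have e : F y.1 (bubT a y.2).1 k = -F y.1 y.2.1 k := by
        by_cases ha : a = fac k
        · exact ha ▸ h2 k _ _
        · exact (h1 k a).resolve_left (fun h' => h ⟨ha, h'⟩) _ _
      simp only [s, e, hsg, χ, if_neg h, Left.neg_pos_iff, Left.neg_neg_iff]
      rcases lt_trichotomy (F y.1 y.2.1 k) 0 with h | h | h
      · simp [h, h.not_gt]
      · simp [h]
      · simp [h, h.not_gt, bu_two]
  exact ⟨s, χ, hs, fun k => if_neg fun h => h.1 rfl, fun k k' hk h => if_pos ⟨h, h3 _ _ hk h⟩,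
    fun k x h => if_pos h, fun k x h => (if_neg h.not_gt).trans (if_pos h)⟩

omit [Fintype C] in
theorem blk_r {X : Type} {m : ℕ} {A B : Fin m → Set X} (hD : ∀ i, ∀ a ∈ A i, a ∉ B i)
    (R : X → (Fin n ⊕ C → ℝ) → Fin m → ℝ) (r0 : ∀ a x y, R x (flp fac a y) = R x y)
    (r1 : ∀ i, ∀ x ∈ A i, ∀ y, R x y i ≤ 0) (r2 : ∀ i, ∀ x ∈ B i, ∀ y, 0 ≤ R x y i)
    (t : Fin n → X × {y // bubNZ fac y} → ZMod 2) :
    ∃ s : ℕ → X × {y // bubNZ fac y} → ZMod 2, (∀ (i : Fin m) y, y.1 ∈ A i → s i.rev y = 0) ∧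
      (∀ (i : Fin m) y, y.1 ∈ B i → s i.rev y = 1) ∧
      (∀ k < m, ∀ a y, s k (y.1, bubT a y.2) = s k y) ∧ (∀ k : Fin n, s (m + k) = t k) ∧
      (∀ (i : Fin m) y, 0 < R y.1 y.2.1 i → s i.rev y = 1) ∧
      ∀ (i : Fin m) y, R y.1 y.2.1 i < 0 → s i.rev y = 0 := by
  classical
  let u : Fin m → X × {y // bubNZ fac y} → ZMod 2 := fun i y =>
    if 0 < R y.1 y.2.1 i then 1 else if R y.1 y.2.1 i < 0 then 0 else if y.1 ∈ B i then 1 else 0
  let s : ℕ → X × {y // bubNZ fac y} → ZMod 2 := fun k =>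
    if h : k < m then u (Fin.rev ⟨k, h⟩) else if h' : k - m < n then t ⟨k - m, h'⟩ else 0
  have e : ∀ i : Fin m, s i.rev = u i := fun i => by
    simp only [s, dif_pos i.rev.2, Fin.eta, Fin.rev_rev]
  refine ⟨s, fun i y h => ?_, fun i y h => ?_, fun k hk a y => ?_, fun k => ?_, fun i y h => ?_,
    fun i y h => ?_⟩
  · rw [e]
    simp only [u, if_neg (r1 i _ h _).not_gt, if_neg (hD i _ h), ite_self]
  · rw [e]
    simp only [u, if_neg (r2 i _ h _).not_gt, if_pos h, ite_self]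
  · simp only [s, dif_pos hk, u, bubT, r0]
  · simp only [s, dif_neg (Nat.le_add_right m k).not_gt, Nat.add_sub_cancel_left, dif_pos k.2,
      Fin.eta]
  · rw [e]
    exact if_pos h
  · rw [e]
    exact (if_neg h.not_gt).trans (if_pos h)

end

theorem bu_blocksZ {X : Type} [MetricSpace X] [CompactSpace X] {m : ℕ} {A B : Fin m → Set X}
    (hE : EssD A B) {C : Type} [Fintype C] [DecidableEq C] {n : ℕ} (fac : Fin n → C)
    (R : X → (Fin n ⊕ C → ℝ) → Fin m → ℝ) (F : X → (Fin n ⊕ C → ℝ) → Fin n → ℝ)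
    (hR : ContinuousOn (fun z : X × (Fin n ⊕ C → ℝ) => R z.1 z.2)
      {z | ∀ a, ∃ i, Sum.elim fac id i = a ∧ z.2 i ≠ 0})
    (hF : ContinuousOn (fun z : X × (Fin n ⊕ C → ℝ) => F z.1 z.2)
      {z | ∀ a, ∃ i, Sum.elim fac id i = a ∧ z.2 i ≠ 0})
    (r0 : ∀ a x y, R x (flp fac a y) = R x y) (r1 : ∀ i, ∀ x ∈ A i, ∀ y, R x y i ≤ 0)
    (r2 : ∀ i, ∀ x ∈ B i, ∀ y, 0 ≤ R x y i)
    (h1 : ∀ k a, (∀ x y, F x (flp fac a y) k = F x y k) ∨ ∀ x y, F x (flp fac a y) k = -F x y k)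
    (h2 : ∀ k x y, F x (flp fac (fac k) y) k = -F x y k)
    (h3 : ∀ k k', k' < k → fac k' ≠ fac k → ∀ x y, F x (flp fac (fac k') y) k = F x y k) :
    ∃ x y, (∀ a, ∃ i, Sum.elim fac id i = a ∧ y i ≠ 0) ∧ R x y = 0 ∧ F x y = 0 := by
  by_contra hc
  push Not at hc
  have hKc : IsCompact ((univ : Set X) ×ˢ bubK fac) := isCompact_univ.prod bubK_compact
  have hK : ContinuousOn (fun z : X × (Fin n ⊕ C → ℝ) => (R z.1 z.2, F z.1 z.2))
      (univ ×ˢ bubK fac) := (hR.prodMk hF).mono fun x hx => bubK_nz hx.2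
  obtain ⟨c, c0, hc'⟩ := hKc.exists_forall_le' hK.norm fun x hx => norm_pos_iff.2 fun h =>
    hc x.1 x.2 (bubK_nz hx.2) (congrArg Prod.fst h) (congrArg Prod.snd h)
  obtain ⟨η, η0, hη⟩ := bub_unif hKc hK c0
  obtain ⟨N, hN⟩ := exists_nat_gt (2 * (n + 1) / η)
  have N0 : (0 : ℝ) < N := lt_trans (by positivity) hN
  obtain ⟨t, χ, hs, χ1, χ0, s1, s0⟩ := blk_s F h1 h2 h3
  obtain ⟨s, sA, sB, sT, st, u1, u0⟩ := blk_r hE.2 R r0 r1 r2 t
  obtain ⟨l, ⟨hl, ⟨hlK, hd⟩, hδ⟩, hB⟩ := blk_comb hE.1 η0 N0 s sA sB sT χ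
    (fun k a y => by rw [st, hs]) χ1 χ0
  simp only [List.forall_mem_map] at hlK hd
  refine hB (buB_zero _ _ l hl ?_)
  obtain ⟨x0, hx0⟩ := List.exists_mem_of_length_pos (l := l) (by omega)
  have hη' : (n : ℝ) * (2 / N) < η := by
    rw [div_lt_iff₀ η0] at hN
    rw [← mul_div_assoc, div_lt_iff₀ N0]
    linarith
  have key : ∀ y ∈ l, dist (R y.1 y.2.1) (R x0.1 x0.2.1) < c ∧
      dist (F y.1 y.2.1) (F x0.1 x0.2.1) < c := fun y hy =>
    max_lt_iff.1 (hη (y.1, y.2.1) ⟨trivial, (hlK y hy).1⟩ (x0.1, x0.2.1)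
      ⟨trivial, (hlK x0 hx0).1⟩ (max_lt (hδ y hy x0 hx0) (by
        rw [dist_eq_norm]
        exact (hd y hy x0 hx0).trans_lt hη')))
  have hx := hc' (x0.1, x0.2.1) ⟨trivial, (hlK x0 hx0).1⟩
  rcases le_max_iff.1 hx with hx | hx
  · obtain ⟨i, hi⟩ : ∃ i, c ≤ |R x0.1 x0.2.1 i| := by
      by_contra h
      push Not at h
      exact hx.not_gt ((pi_norm_lt_iff c0).2 h)
    have k : ∀ y ∈ l, |R y.1 y.2.1 i - R x0.1 x0.2.1 i| < c := fun y hy =>
      lt_of_le_of_lt (by rw [← Real.dist_eq]; exact dist_le_pi_dist _ _ i) (key y hy).1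
    refine ⟨i.rev, lt_of_lt_of_le i.rev.2 (Nat.le_add_right _ _), fun x hx y hy => ?_⟩
    have k1 := abs_lt.1 (k x hx)
    have k2 := abs_lt.1 (k y hy)
    rcases le_abs.1 hi with h | h
    · rw [u1 i x (by linarith), u1 i y (by linarith)]
    · rw [u0 i x (by linarith), u0 i y (by linarith)]
  · obtain ⟨i, hi⟩ : ∃ i, c ≤ |F x0.1 x0.2.1 i| := by
      by_contra h
      push Not at h
      exact hx.not_gt ((pi_norm_lt_iff c0).2 h)
    have k : ∀ y ∈ l, |F y.1 y.2.1 i - F x0.1 x0.2.1 i| < c := fun y hy =>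
      lt_of_le_of_lt (by rw [← Real.dist_eq]; exact dist_le_pi_dist _ _ i) (key y hy).2
    refine ⟨m + i, Nat.add_lt_add_left i.2 _, fun x hx y hy => ?_⟩
    have k1 := abs_lt.1 (k x hx)
    have k2 := abs_lt.1 (k y hy)
    rw [st]
    rcases le_abs.1 hi with h | h
    · rw [s1 i x (by linarith), s1 i y (by linarith)]
    · rw [s0 i x (by linarith), s0 i y (by linarith)]

end Vale.Agent.P093
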