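import Vale.Agent.P093.Obs
import Vale.Agent.P093E.Blk

/-! P093E Prd (TASK). Helper names start with `prd_`. First port `bu_prod` (`Vale/Agent/P093/BUp.lean`; reuse `bup_fac`, `bup_v`, `bup_u` and their lemmas, `bup_sig`, `bup_cont`) with a parameter `x : X` and additional equations `R x u` (invariant under the flips of `u`, with the sign conditions), using `bu_blocksZ`. Then port `obs_zero` (`P093/Obs.lean`; compare `obs_zeroC` in `P093C/BUq.lean`). -/

open Filter Topology Set

noncomputable section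

namespace Vale.Agent.P093

theorem prd_prod {X : Type} [MetricSpace X] [CompactSpace X] {m : ℕ} {A B : Fin m → Set X}
    (hE : EssD A B) {J D : Type} [Fintype J] [DecidableEq J] [Fintype D]
    (R : X → (J → Fin 3 → ℝ) → Fin m → ℝ)
    (G : X → (Option D → ℝ) → (J → Fin 3 → ℝ) → D → ℝ)
    (F : X → (Option D → ℝ) → (J → Fin 3 → ℝ) → J → Fin 2 → ℝ)
    (cR : ContinuousOn (fun z : X × (Option D → ℝ) × (J → Fin 3 → ℝ) => R z.1 z.2.2)
      {z | ∀ j, z.2.2 j ≠ 0})
    (cG : ContinuousOn (fun z : X × (Option D → ℝ) × (J → Fin 3 → ℝ) => G z.1 z.2.1 z.2.2)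
      {z | ∀ j, z.2.2 j ≠ 0})
    (cF : ContinuousOn (fun z : X × (Option D → ℝ) × (J → Fin 3 → ℝ) => F z.1 z.2.1 z.2.2)
      {z | ∀ j, z.2.2 j ≠ 0})
    (R0 : ∀ x u j, R x (Function.update u j (-u j)) = R x u)
    (R1 : ∀ i, ∀ x ∈ A i, ∀ u, R x u i ≤ 0) (R2 : ∀ i, ∀ x ∈ B i, ∀ u, 0 ≤ R x u i)
    (G1 : ∀ x v u, G x (-v) u = -G x v u)
    (G2 : ∀ x v u j, G x v (Function.update u j (-u j)) = G x v u)
    (F1 : ∀ x v u, F x (-v) u = -F x v u)
    (F2 : ∀ x v u j, F x v (Function.update u j (-u j)) j = -F x v u j)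
    (F3 : ∀ x v u j j', j' ≠ j → F x v (Function.update u j (-u j)) j' = F x v u j') :
    ∃ x v u, v ≠ 0 ∧ (∀ j, u j ≠ 0) ∧ R x u = 0 ∧ G x v u = 0 ∧ F x v u = 0 := by
  obtain ⟨n, σ, hσ⟩ := bup_sig (J × Fin 2) D
  have hm : MapsTo (fun z : X × (Fin n ⊕ Option J → ℝ) => (z.1, bup_v σ z.2, bup_u σ z.2))
      {z | ∀ a, ∃ i, Sum.elim (bup_fac σ) id i = a ∧ z.2 i ≠ 0} {z | ∀ j, z.2.2 j ≠ 0} :=
    fun z hz j => bup_u_ne σ (hz (some j))
  have hc : Continuous fun z : X × (Fin n ⊕ Option J → ℝ) => (z.1, bup_v σ z.2, bup_u σ z.2) :=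
    continuous_fst.prodMk ((bup_cont σ).comp continuous_snd)
  refine Exists.elim (bu_blocksZ hE (bup_fac σ) (fun x y => R x (bup_u σ y))
    (fun x y k => Sum.elim (fun a : J × Fin 2 => F x (bup_v σ y) (bup_u σ y) a.1 a.2)
      (fun d => G x (bup_v σ y) (bup_u σ y) d) (σ k)) (cR.comp hc.continuousOn hm) ?_ ?_
    (fun i x hx y => R1 i x hx _) (fun i x hx y => R2 i x hx _) ?_ ?_ ?_) ?_
  · have c1 := cF.comp hc.continuousOn hm
    have c2 := cG.comp hc.continuousOn hm
    refine continuousOn_pi.2 fun k => ?_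
    rcases σ k with ⟨j, c⟩ | d
    · exact continuousOn_pi.1 (continuousOn_pi.1 c1 j) c
    · exact continuousOn_pi.1 c2 d
  · rintro (_ | j) x y
    · simp only [bup_u_none]
    · simp only [bup_u_some, R0]
  · intro k a
    rcases σ k with ⟨j, c⟩ | d <;> rcases a with _ | j'
    · exact Or.inr fun x y => by simp [bup_v_none, bup_u_none, F1]
    · by_cases h : j = j'
      · subst h
        exact Or.inr fun x y => by simp [bup_v_some, bup_u_some, F2]
      · exact Or.inl fun x y => by simp [bup_v_some, bup_u_some, F3 _ _ _ _ _ h]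
    · exact Or.inr fun x y => by simp [bup_v_none, bup_u_none, G1]
    · exact Or.inl fun x y => by simp [bup_v_some, bup_u_some, G2]
  · intro k x y
    obtain ⟨s, rfl⟩ := σ.symm.surjective k
    rcases s with ⟨j, c⟩ | d
    · have e : bup_fac σ (σ.symm (.inl (j, c))) = some j := by simp [bup_fac]
      simp [e, bup_v_some, bup_u_some, F2]
    · have e : bup_fac σ (σ.symm (.inr d)) = none := by simp [bup_fac]
      simp [e, bup_v_none, bup_u_none, G1]
  · intro k k' hk hne x y
    obtain ⟨s, rfl⟩ := σ.symm.surjective k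
    obtain ⟨s', rfl⟩ := σ.symm.surjective k'
    rcases s' with ⟨j', c'⟩ | d'
    · have e : bup_fac σ (σ.symm (.inl (j', c'))) = some j' := by simp [bup_fac]
      rcases s with ⟨j, c⟩ | d
      · have h : j ≠ j' := fun h => hne (by simp [bup_fac, h])
        simp [e, bup_v_some, bup_u_some, F3 _ _ _ _ _ h]
      · simp [e, bup_v_some, bup_u_some, G2]
    · rcases s with a | d
      · exact absurd hk (hσ d' a)
      · exact absurd (by simp [bup_fac]) hne
  · rintro x ⟨y, hy, hr, h0⟩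
    refine ⟨x, bup_v σ y, bup_u σ y, bup_v_ne σ (hy none), fun j => bup_u_ne σ (hy (some j)), hr,
      funext fun d => ?_, funext fun j => funext fun c => ?_⟩
    · simpa using congrFun h0 (σ.symm (.inr d))
    · simpa using congrFun h0 (σ.symm (.inl (j, c)))

theorem obs_zeroD {X : Type} [MetricSpace X] [CompactSpace X] {m : ℕ} {A B : Fin m → Set X}
    (hE : EssD A B) {J D : Type} [Fintype J] [DecidableEq J] [Fintype D]
    {H : (Fin 3 → ℝ) → S2} (hH : ContinuousOn H {u | u ≠ 0}) (hH' : ∀ u, H (-u) = H u)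
    {R : X × (J → S2) → Fin m → ℝ} (hR : MirH A B R)
    (cD : D → Option (D × Fin 2) → X × (J → S2) → ℂ) (hD : ∀ d o, Continuous (cD d o))
    (cJ : J → Fin 2 → Option (D × Fin 2) → X → ℂ) (hJ : ∀ j s o, Continuous (cJ j s o)) :
    ∃ (τ : X) (v : Option (D × Fin 2) → ℝ) (u : J → Fin 3 → ℝ), v ≠ 0 ∧ (∀ j, u j ≠ 0) ∧
      R (τ, fun j => H (u j)) = 0 ∧ (∀ d, ∑ o, v o * cD d o (τ, fun j => H (u j)) = 0) ∧
      ∀ j, ∑ s, starRingEnd ℂ (spin (u j) s) * ∑ o, v o * cJ j s o τ = 0 := by
  obtain ⟨Ω, hΩ⟩ : ∃ Ω : X → (J → Fin 3 → ℝ) → X × (J → S2),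
      ∀ x u, Ω x u = (x, fun j => H (u j)) := ⟨_, fun _ _ => rfl⟩
  have e1 : ∀ x u, (Ω x u).1 = x := fun x u => by rw [hΩ]
  have e2 : ∀ x u j, Ω x (Function.update u j (-u j)) = Ω x u := fun x u j => by
    have e : (fun j' => H (Function.update u j (-u j) j')) = fun j' => H (u j') := by
      funext j'
      by_cases h : j' = j
      · rw [h, Function.update_self, hH']
      · rw [Function.update_of_ne h]
    rw [hΩ, hΩ, e]
  have c2 : ContinuousOn (fun z : X × (Option (D × Fin 2) → ℝ) × (J → Fin 3 → ℝ) => Ω z.1 z.2.2)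
      {z | ∀ j, z.2.2 j ≠ 0} := by
    simp only [hΩ]
    exact continuousOn_fst.prodMk (continuousOn_pi.2 fun j =>
      hH.comp (Continuous.continuousOn (by fun_prop)) fun z hz => hz j)
  have c3 : ∀ c : Option (D × Fin 2) → X × (J → S2) → ℂ, (∀ o, Continuous (c o)) →
      ContinuousOn (fun z : X × (Option (D × Fin 2) → ℝ) × (J → Fin 3 → ℝ) =>
        ∑ o, z.2.1 o * c o (Ω z.1 z.2.2)) {z | ∀ j, z.2.2 j ≠ 0} := fun c hc =>
    continuousOn_finsetSum _ fun o _ => ContinuousOn.mul (Continuous.continuousOn (by fun_prop))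
      ((hc o).comp_continuousOn c2)
  obtain ⟨x, v, u, hv, hu, h0, h1, h2⟩ := prd_prod hE (J := J) (D := D × Fin 2)
    (fun x u => R (Ω x u))
    (fun x v u d => obsRI (∑ o, v o * cD d.1 o (Ω x u)) d.2)
    (fun x v u j => obsRI (∑ s, starRingEnd ℂ (spin (u j) s) * ∑ o, v o * cJ j s o (Ω x u).1))
    (hR.cont.comp_continuousOn c2)
    (continuousOn_pi.2 fun d => ((continuous_apply d.2).comp obsRI_cont).comp_continuousOn
      (c3 _ (hD d.1)))
    (continuousOn_pi.2 fun j => obsRI_cont.comp_continuousOn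
      (continuousOn_finsetSum _ fun s _ => ContinuousOn.mul (Continuous.continuousOn
        (Complex.continuous_conj.comp ((obs_spin_cont s).comp (by fun_prop))))
        (c3 (fun o z => cJ j s o z.1) fun o => (hJ j s o).comp continuous_fst)))
    (fun x u j => by simp only [e2])
    (fun i x hx u => hR.lo _ i (by rw [e1]; exact hx))
    (fun i x hx u => hR.hi _ i (by rw [e1]; exact hx))
    (fun x v u => funext fun d => by
      simp only [Pi.neg_apply, Complex.ofReal_neg, neg_mul, Finset.sum_neg_distrib, obsRI_neg])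
    (fun x v u j => by simp only [e2])
    (fun x v u => funext fun j => by
      simp only [Pi.neg_apply, Complex.ofReal_neg, neg_mul, mul_neg, Finset.sum_neg_distrib,
        obsRI_neg])
    (fun x v u j => by
      simp only [e2, Function.update_self, obs_spin_neg, map_neg, neg_mul, Finset.sum_neg_distrib,
        obsRI_neg])
    (fun x v u j j' h => by simp only [e2, Function.update_of_ne h])
  simp only [hΩ] at h0 h1 h2
  exact ⟨x, v, u, hv, hu, h0, fun d => obsRI_zero fun s => congrFun h1 (d, s),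
    fun j => obsRI_zero fun s => congrFun (congrFun h2 j) s⟩

end Vale.Agent.P093
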