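import Vale.Agent.P093C.Obs
import Vale.Agent.P093E.Prd

/-! P093E Obs. The obstruction. -/

open Filter Topology Set

noncomputable section

namespace Vale.Agent.P093

variable {X : Type} [MetricSpace X] [CompactSpace X] {h : X ≃ₜ X} {q p : ℕ} {L : Type}
  [Fintype L] [DecidableEq L] {g : X → ℝ} {ρ : L → X → Fin 3 → ℝ} {ε : ℝ}

theorem not_closeD (hM : MarkD h q p ε g ρ) {gA : X → ℂ} (g1 : ∀ x, 1 / 2 ≤ g x → gA x = 1)
    {A B x : Fin p ⊕ L × Fin 2 → Fin p ⊕ L × Fin 2 → Hs X →L[ℂ] Hs X}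
    (hA : ∀ i j ξ a, A i j ξ a = gA ((h ^ a.1) a.2) * matA p L i j * ξ a)
    (hB : ∀ i j ξ a, B i j ξ a =
      (g ((h ^ a.1) a.2) : ℂ) * matB p (fun l => ρ l ((h ^ a.1) a.2)) i j * ξ a)
    (hx : ∀ i j, x i j ∈ cross h) :
    ¬ ∀ i j, ‖∑ k, ∑ l, star (x k i) * B k l * x l j - A i j‖ <
      1 / (Fintype.card (Fin p ⊕ L × Fin 2) + 1) := by
  intro hcl
  obtain ⟨R, x', hO, hx'⟩ := fp_approx (h := h)
    (x := fun a : (Fin p ⊕ L × Fin 2) × (Fin p ⊕ L × Fin 2) => x a.1 a.2) (fun a => hx _ _)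
    (O := {x | ∀ i j, ‖∑ k, ∑ l, star (x (k, i)) * B k l * x (l, j) - A i j‖ <
      1 / (Fintype.card (Fin p ⊕ L × Fin 2) + 1)}) (by
      simp only [ofPred_forall]
      exact isOpen_iInter_of_finite fun i => isOpen_iInter_of_finite fun j =>
        isOpen_lt (by fun_prop) continuous_const) hcl
  obtain ⟨M, m, k, o, A₁, B₁, φ, Rm, hE₁, hφ, hR, hBad, hOff, hcard⟩ :=
    hM.cube (4 * ((R + 1) * Fintype.card (Fin p ⊕ L × Fin 2)))
  obtain ⟨H, hH, hH', hb⟩ := exists_hopf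
  obtain ⟨E, hE⟩ := exists_code (Option ((Fin (2 * k) ⊕ (Fin (R + 1) × Bool) ×
    (Fin p ⊕ L × Fin 2)) × Fin 2)) (Fin M × Fin p)
  obtain ⟨Mx, hMx⟩ := exists_check (2 * k) ((Fin M × L) × Fin 2)
  have gc : ∀ l : ℤ, Continuous fun τ => g ((h ^ l) (φ τ)) := fun l =>
    hM.urp.cont.comp ((Homeomorph.continuous _).comp hφ)
  obtain ⟨c, hc⟩ : ∃ c : ℤ → Fin p ⊕ L × Fin 2 → _ → X → ℂ, ∀ l k' o τ, c l k' o τ =
      ∑ a : (Fin M × Fin q) × Fin p, ((E o (a.1.1, a.2) *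
        max 0 (2 * g ((h ^ pos a.1.1 a.1.2) (φ τ)) - 1) : ℝ) : ℂ) *
        x' (k', .inl a.2) (dl (pos a.1.1 a.1.2, φ τ)) (l, φ τ) := ⟨_, fun _ _ _ _ => rfl⟩
  have cc : ∀ l k' o, Continuous (c l k' o) := fun l k' o => by
    rw [funext (hc l k' o)]
    exact continuous_finsetSum _ fun a _ => (Complex.continuous_ofReal.comp (continuous_const.mul
      (continuous_const.max ((continuous_const.mul (gc _)).sub continuous_const)))).mul
      (((hx' _).cont _ _).comp hφ)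
  obtain ⟨cJ, hJ⟩ : ∃ cJ : Fin M × L → Fin 2 → _ → X → ℂ, ∀ γ σ o τ, cJ γ σ o τ =
      ∑ s : Fin q, (g ((h ^ pos γ.1 s) (φ τ)) : ℂ) * c (pos γ.1 s) (.inr (γ.2, σ)) o τ :=
    ⟨_, fun _ _ _ _ => rfl⟩
  have cJc : ∀ γ σ o, Continuous (cJ γ σ o) := fun γ σ o => by
    rw [funext (hJ γ σ o)]
    exact continuous_finsetSum _ fun s _ => (Complex.continuous_ofReal.comp (gc _)).mul (cc _ _ _)
  have dc : ∀ γ, Continuous fun z : X × (Fin M × L → S2) => obcD h q g ρ γ (φ z.1) z.2 :=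
    fun γ => continuous_finsetSum _ fun s _ => ((gc _).comp continuous_fst).mul
      (((hM.cont _).comp ((Homeomorph.continuous _).comp (hφ.comp continuous_fst))).sub
        (continuous_subtype_val.comp ((continuous_apply γ).comp continuous_snd))).norm
  obtain ⟨τ, v, u, hv, hu, h0, h1, h2⟩ := obs_zeroD hE₁ hH hH' hR
    (Sum.elim (fun d o z => ∑ b, Mx d b * ((obcD h q g ρ b.1 (φ z.1) z.2 : ℂ) * cJ b.1 b.2 o z.1))
      fun b o z => c (if b.1.2 then (q : ℤ) * M + (b.1.1 : ℕ) else -((b.1.1 : ℕ) : ℤ)) b.2 o z.1)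
    (fun d o => by
      rcases d with d | b
      · exact continuous_finsetSum _ fun b _ => continuous_const.mul
          ((Complex.continuous_ofReal.comp (dc _)).mul ((cJc _ _ _).comp continuous_fst))
      · exact (cc _ _ _).comp continuous_fst) cJ cJc
  obtain ⟨Bad, hk, hBad'⟩ := hBad _ _ h0
  obtain ⟨Off, ho, hOff'⟩ := hOff τ
  obtain ⟨a₀, a1, a2⟩ := obc_ne ho (by
    simp only [Fintype.card_option, Fintype.card_prod, Fintype.card_sum, Fintype.card_fin,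
      Fintype.card_bool] at hcard ⊢
    nlinarith) (hE v hv)
  obtain ⟨s₀, hs₀⟩ := hOff' _ a1
  obtain ⟨l, k₀, hg, l1, l2, hne⟩ := exists_coordC (h := h) obc_inj (fun a => (obc_le a).1)
    (fun a => (obc_le a).2) (gB := fun x => (g x : ℂ))
    (fun x => matB p fun l => ρ l x) hA hB (x := fun i j => x' (i, j)) (fun i j => hx' _) hO
    (y := φ τ) (v := fun a : (Fin M × Fin q) × Fin p => (((∑ o, v o * E o (a.1.1, a.2)) *
      max 0 (2 * g ((h ^ pos a.1.1 a.1.2) (φ τ)) - 1) : ℝ) : ℂ)) (fun e => a2 (by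
        have h3 := Complex.ofReal_eq_zero.1 (congrFun e ((a₀.1, s₀), a₀.2))
        simp only [hs₀] at h3
        exact (mul_eq_zero.1 h3).resolve_right (by norm_num))) (fun a ha => g1 _ (by
        by_contra hn
        refine ha ?_
        rw [max_eq_left (by linarith), mul_zero, Complex.ofReal_zero]))
  have hsum : ∀ l k', ∑ a : (Fin M × Fin q) × Fin p, (((∑ o, v o * E o (a.1.1, a.2)) *
      max 0 (2 * g ((h ^ pos a.1.1 a.1.2) (φ τ)) - 1) : ℝ) : ℂ) *
      x' (k', .inl a.2) (dl (pos a.1.1 a.1.2, φ τ)) (l, φ τ) = ∑ o, v o * c l k' o τ :=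
    fun l k' => by
      simp only [hc, Finset.mul_sum, Finset.sum_mul, Complex.ofReal_sum]
      rw [Finset.sum_comm]
      refine Finset.sum_congr rfl fun o _ => Finset.sum_congr rfl fun a _ => ?_
      push_cast
      ring
  simp only [hsum] at hne
  refine hne ?_
  by_cases j0 : l < 0
  · refine Finset.sum_eq_zero fun k' _ => ?_
    have h3 := h1 (.inr ((⟨(-l).toNat, by omega⟩, false), k'))
    have h4 : (0 : ℤ) ≤ -l := by omega
    simp only [Sum.elim_inr, Bool.false_eq_true, if_false, Int.toNat_of_nonneg h4, neg_neg] at h3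
    rw [h3, mul_zero]
  by_cases jM : (q : ℤ) * M ≤ l
  · refine Finset.sum_eq_zero fun k' _ => ?_
    have h3 := h1 (.inr ((⟨(l - q * M : ℤ).toNat, by omega⟩, true), k'))
    have h4 : (0 : ℤ) ≤ l - q * M := by omega
    simp only [Sum.elim_inr, if_true, Int.toNat_of_nonneg h4, add_sub_cancel] at h3
    rw [h3, mul_zero]
  obtain ⟨j, s, rfl⟩ := obc_surj (not_lt.1 j0) (not_le.1 jM)
  refine obc_fin hM.urp hu (fun γ => hb _ (hu γ)) hk hBad' hMx
    (η := fun l k' => ∑ o, v o * c l k' o τ) (ζ := fun γ σ => ∑ o, v o * cJ γ σ o τ)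
    (fun γ σ => ?_) (fun d => ?_) h2 j s (Complex.ofReal_ne_zero.1 hg) k₀
  · simp only [hJ, Finset.mul_sum]
    rw [Finset.sum_comm]
    exact Finset.sum_congr rfl fun o _ => Finset.sum_congr rfl fun a _ => by ring
  · rw [← h1 (.inl d)]
    simp only [Sum.elim_inl, Finset.mul_sum]
    rw [Finset.sum_comm]
    exact Finset.sum_congr rfl fun o _ => Finset.sum_congr rfl fun a _ => by ring

end Vale.Agent.P093
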