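import Vale.Agent.P093E.Lst

/-! P093E Cub. Singular cubes give essential families. -/

open Filter Topology Set
open Vale.Agent.P209.C
open scoped ENNReal

noncomputable section

namespace Vale.Agent.P093

section

variable {Y : Type}

/-- The prism over a list. -/
def cubP (f g : Y → Y) : List Y → List (List Y)
  | [] => []
  | x :: l => (f x :: g x :: l.map g) :: (cubP f g l).map (f x :: ·)

theorem cubP_sum (f g : Y → Y) (φ : List Y → ZMod 2) (l : List Y) :
    ((cubP f g l).map φ).sum = buP f g φ l := by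
  induction l generalizing φ with
  | nil => rfl
  | cons x l ih =>
    rw [cubP, buP, List.map_cons, List.sum_cons, List.map_map, ← ih]
    rfl

theorem cubP_mem (f g : Y → Y) (l : List Y) : ∀ w ∈ cubP f g l, w.length = l.length + 1 ∧
    ∀ z ∈ w, ∃ x ∈ l, z = f x ∨ z = g x := by
  induction l with
  | nil => simp [cubP]
  | cons x l ih =>
    intro w hw
    rcases List.mem_cons.1 hw with rfl | hw
    · refine ⟨by simp, fun z hz => ?_⟩
      simp only [List.mem_cons, List.mem_map] at hz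
      rcases hz with rfl | rfl | ⟨y, hy, rfl⟩
      · exact ⟨x, List.mem_cons_self, Or.inl rfl⟩
      · exact ⟨x, List.mem_cons_self, Or.inr rfl⟩
      · exact ⟨y, List.mem_cons_of_mem _ hy, Or.inr rfl⟩
    · obtain ⟨w', h1, rfl⟩ := List.mem_map.1 hw
      refine ⟨by simp [(ih w' h1).1], fun z hz => ?_⟩
      rcases List.mem_cons.1 hz with rfl | hz
      · exact ⟨x, List.mem_cons_self, Or.inl rfl⟩
      · obtain ⟨y, hy, e⟩ := (ih w' h1).2 z hz
        exact ⟨y, List.mem_cons_of_mem _ hy, e⟩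

/-- The iterated prisms. -/
def cubC (e : Y) (f : ℕ → ℕ → Y → Y) (N : ℕ) : ℕ → List (List Y)
  | 0 => [[e]]
  | k + 1 => (List.range N).flatMap fun i => (cubC e f N k).flatMap (cubP (f k i) (f k (i + 1)))

theorem cub_flat {A B : Type} (l : List A) (g : A → List B) (φ : B → ZMod 2) :
    ((l.flatMap g).map φ).sum = (l.map fun a => ((g a).map φ).sum).sum := by
  induction l with
  | nil => rfl
  | cons a l ih => rw [List.flatMap_cons, List.map_append, List.sum_append, ih, List.map_cons,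
      List.sum_cons]

theorem cub_tel (g : ℕ → ZMod 2) (N : ℕ) :
    ((List.range N).map fun i => g (i + 1) - g i).sum = g N - g 0 := by
  induction N with
  | zero => simp
  | succ N ih =>
    rw [List.range_succ, List.map_append, List.sum_append, ih, List.map_singleton,
      List.sum_singleton]
    ring

variable {e : Y} {f : ℕ → ℕ → Y → Y} {N : ℕ}

theorem cubC_len (k : ℕ) : ∀ l ∈ cubC e f N k, l.length = k + 1 := by
  induction k with
  | zero => simp [cubC]
  | succ k ih =>
    intro w hw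
    obtain ⟨i, -, h1⟩ := List.mem_flatMap.1 hw
    obtain ⟨l, h2, h3⟩ := List.mem_flatMap.1 h1
    rw [(cubP_mem _ _ l w h3).1, ih l h2]

theorem cubC_step (k : ℕ) (φ : List Y → ZMod 2)
    (h : ∀ i, ((cubC e f N k).map (buD (buP (f k i) (f k (i + 1)) φ))).sum = 0) :
    ((cubC e f N (k + 1)).map (buD φ)).sum =
      ((cubC e f N k).map fun l => φ (l.map (f k N))).sum +
        ((cubC e f N k).map fun l => φ (l.map (f k 0))).sum := by
  have key : ∀ i, (((cubC e f N k).flatMap (cubP (f k i) (f k (i + 1)))).map (buD φ)).sum =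
      ((cubC e f N k).map fun l => φ (l.map (f k (i + 1)))).sum -
        ((cubC e f N k).map fun l => φ (l.map (f k i))).sum := fun i => by
    rw [cub_flat]
    simp only [cubP_sum, buP_buD, List.sum_map_add, h i]
    rw [CharTwo.sub_eq_add, add_zero, add_comm]
  rw [cubC, cub_flat]
  simp only [key]
  rw [cub_tel fun i => ((cubC e f N k).map fun l => φ (l.map (f k i))).sum, CharTwo.sub_eq_add]

variable {A B : ℕ → Set Y} {m : ℕ}

theorem cubC_bd (h0 : ∀ k < m, ∀ x, f k 0 x ∈ A k) (h1 : ∀ k < m, ∀ x, f k N x ∈ B k)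
    (hA : ∀ k < m, ∀ j < k, ∀ i, ∀ x ∈ A j, f k i x ∈ A j)
    (hB : ∀ k < m, ∀ j < k, ∀ i, ∀ x ∈ B j, f k i x ∈ B j) (k : ℕ) (hk : k ≤ m)
    (φ : List Y → ZMod 2) (hφ : φ [] = 0) (h : ∀ l, l.length = k →
      (∃ j < k, (∀ x ∈ l, x ∈ A j) ∨ ∀ x ∈ l, x ∈ B j) → φ l = 0) :
    ((cubC e f N k).map (buD φ)).sum = 0 := by
  induction k generalizing φ with
  | zero => simpa [cubC, buD] using hφ
  | succ k ih =>
    rw [cubC_step k φ fun i => ih (by omega) _ rfl fun l hl ⟨j, hj, h2⟩ =>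
      buP_zero _ _ _ _ fun w hw hz => h w (by omega) ⟨j, by omega, h2.imp
        (fun h3 z hz' => by
          obtain ⟨x, hx, rfl | rfl⟩ := hz z hz' <;> exact hA k hk j hj _ x (h3 x hx))
        fun h3 z hz' => by
          obtain ⟨x, hx, rfl | rfl⟩ := hz z hz' <;> exact hB k hk j hj _ x (h3 x hx)⟩,
      List.sum_eq_zero, List.sum_eq_zero, add_zero]
    · intro a ha
      obtain ⟨l, hl, rfl⟩ := List.mem_map.1 ha
      refine h _ (by rw [List.length_map, cubC_len k l hl]) ⟨k, by omega, Or.inl fun x hx => ?_⟩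
      obtain ⟨y, -, rfl⟩ := List.mem_map.1 hx
      exact h0 k hk y
    · intro a ha
      obtain ⟨l, hl, rfl⟩ := List.mem_map.1 ha
      refine h _ (by rw [List.length_map, cubC_len k l hl]) ⟨k, by omega, Or.inr fun x hx => ?_⟩
      obtain ⟨y, -, rfl⟩ := List.mem_map.1 hx
      exact h1 k hk y

theorem cub_B_map (s : ℕ → Y → ZMod 2) (g : Y → Y) (k : ℕ) (l : List Y) :
    buB s k (l.map g) = buB (fun j x => s j (g x)) k l := by
  induction k generalizing l with
  | zero => rw [buB, buB, ← buD_map]; simp only [List.length_map]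
  | succ k ih =>
    rw [buB, buB, ← buD_map]
    congr 1
    funext w
    cases w with
    | nil => rfl
    | cons x w => rw [List.map_cons, buC, buC, ← ih, List.map_cons]

theorem cubC_one (h0 : ∀ k < m, ∀ x, f k 0 x ∈ A k) (h1 : ∀ k < m, ∀ x, f k N x ∈ B k)
    (hA : ∀ k < m, ∀ j < k, ∀ i, ∀ x ∈ A j, f k i x ∈ A j)
    (hB : ∀ k < m, ∀ j < k, ∀ i, ∀ x ∈ B j, f k i x ∈ B j) (k : ℕ) (hk : k ≤ m)
    (s : ℕ → Y → ZMod 2) (s0 : ∀ j < k, ∀ x ∈ A j, s j x = 0) (s1 : ∀ j < k, ∀ x ∈ B j, s j x = 1) :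
    ((cubC e f N k).map (buB s k)).sum = 1 := by
  induction k generalizing s with
  | zero => simp [cubC, buB, buD]
  | succ k ih =>
    have hz : ∀ l, l.length = k + 1 → (∃ j < k, (∀ x ∈ l, x ∈ A j) ∨ ∀ x ∈ l, x ∈ B j) →
        buC (s k) (buB s k) l = 0 := fun l hl ⟨j, hj, h2⟩ => by
      cases l with
      | nil => rfl
      | cons x l =>
        rw [buC, buB_zero s k _ hl ⟨j, hj, fun a ha b hb => h2.elim
          (fun h3 => by rw [s0 j (by omega) a (h3 a ha), s0 j (by omega) b (h3 b hb)])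
          fun h3 => by rw [s1 j (by omega) a (h3 a ha), s1 j (by omega) b (h3 b hb)]⟩, mul_zero]
    rw [buB, cubC_step k _ fun i => cubC_bd h0 h1 hA hB k (by omega) _ rfl fun l hl ⟨j, hj, h2⟩ =>
      buP_zero _ _ _ _ fun w hw hz' => hz w (by omega) ⟨j, hj, h2.imp
        (fun h3 z hz'' => by
          obtain ⟨x, hx, rfl | rfl⟩ := hz' z hz'' <;> exact hA k hk j hj _ x (h3 x hx))
        fun h3 z hz'' => by
          obtain ⟨x, hx, rfl | rfl⟩ := hz' z hz'' <;> exact hB k hk j hj _ x (h3 x hx)⟩,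
      List.sum_eq_zero (l := List.map (fun l : List Y => buC (s k) (buB s k) (l.map (f k 0))) _), add_zero,
      ← ih (by omega) (fun j x => s j (f k N x))
        (fun j hj x hx => s0 j (by omega) _ (hA k hk j hj _ x hx))
        fun j hj x hx => s1 j (by omega) _ (hB k hk j hj _ x hx)]
    · congr 1
      refine List.map_congr_left fun l _ => ?_
      cases l with
      | nil => cases k <;> rfl
      | cons x l =>
        rw [← cub_B_map, List.map_cons, buC, s1 k (by omega) _ (h1 k hk x), one_mul]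
    · intro a ha
      obtain ⟨l, -, rfl⟩ := List.mem_map.1 ha
      cases l with
      | nil => rfl
      | cons x l => rw [List.map_cons, buC, s0 k (by omega) _ (h0 k hk x), zero_mul]

end

/-- Setting a coordinate. -/
def cubF (m N k i : ℕ) (y : Cb m) : Cb m :=
  fun j => if (j.rev : ℕ) = k then projIcc 0 1 zero_le_one ((i : ℝ) / N) else y j

theorem cubC_diam {m N : ℕ} (hN : (0 : ℝ) < N) (k : ℕ) : ∀ l ∈ cubC 0 (cubF m N) N k,
    ∀ x ∈ l, ∀ y ∈ l, dist x y ≤ 1 / N := by
  induction k with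
  | zero =>
    intro l hl x hx y hy
    rw [List.mem_singleton.1 hl] at hx hy
    rw [List.mem_singleton.1 hx, List.mem_singleton.1 hy, dist_self]
    positivity
  | succ k ih =>
    intro w hw z hz z' hz'
    obtain ⟨i, -, h1⟩ := List.mem_flatMap.1 hw
    obtain ⟨l, h2, h3⟩ := List.mem_flatMap.1 h1
    have key : ∀ a b : ℕ, (a = i ∨ a = i + 1) → (b = i ∨ b = i + 1) → ∀ x ∈ l, ∀ y ∈ l,
        dist (cubF m N k a x) (cubF m N k b y) ≤ 1 / N := fun a b ha hb x hx y hy => by
      refine (dist_pi_le_iff (by positivity)).2 fun j => ?_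
      unfold cubF
      split_ifs
      · refine (abs_projIcc_sub_projIcc _).trans ?_
        rw [← sub_div, abs_div, abs_of_pos hN]
        refine div_le_div_of_nonneg_right ?_ hN.le
        rcases ha with rfl | rfl <;> rcases hb with rfl | rfl <;> simp
      · exact (dist_le_pi_dist x y j).trans (ih l h2 x hx y hy)
    obtain ⟨x, hx, rfl | rfl⟩ := (cubP_mem _ _ l w h3).2 z hz <;>
      obtain ⟨y, hy, rfl | rfl⟩ := (cubP_mem _ _ l w h3).2 z' hz'
    · exact key _ _ (Or.inl rfl) (Or.inl rfl) x hx y hy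
    · exact key _ _ (Or.inl rfl) (Or.inr rfl) x hx y hy
    · exact key _ _ (Or.inr rfl) (Or.inl rfl) x hx y hy
    · exact key _ _ (Or.inr rfl) (Or.inr rfl) x hx y hy

theorem cube_ess {X : Type} [MetricSpace X] {m : ℕ} (hm : 0 < m) (φ : C(Cb m, X)) :
    Ess (fun i => φ '' {s | s i = 0}) fun i => φ '' {s | s i = 1} := by
  intro δ hδ
  obtain ⟨η, η0, hη⟩ := Metric.uniformContinuous_iff.1
    (CompactSpace.uniformContinuous_of_continuous φ.continuous) δ hδ
  obtain ⟨n, hn⟩ := exists_nat_one_div_lt η0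
  have hN : (0 : ℝ) < (n + 1 : ℕ) := by positivity
  let A : ℕ → Set (Cb m) := fun k => {s | ∀ j : Fin m, (j.rev : ℕ) = k → s j = 0}
  let B : ℕ → Set (Cb m) := fun k => {s | ∀ j : Fin m, (j.rev : ℕ) = k → s j = 1}
  have h0 : ∀ k < m, ∀ x, cubF m (n + 1) k 0 x ∈ A k := fun k _ x j hj => by
    rw [cubF, if_pos hj, Nat.cast_zero, zero_div, projIcc_left]
    rfl
  have h1 : ∀ k < m, ∀ x, cubF m (n + 1) k (n + 1) x ∈ B k := fun k _ x j hj => by
    rw [cubF, if_pos hj, div_self hN.ne', projIcc_right]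
    rfl
  have hA : ∀ k < m, ∀ j < k, ∀ i, ∀ x ∈ A j, cubF m (n + 1) k i x ∈ A j :=
    fun k _ j hj i x hx a ha => by rw [cubF, if_neg (by omega), hx a ha]
  have hB : ∀ k < m, ∀ j < k, ∀ i, ∀ x ∈ B j, cubF m (n + 1) k i x ∈ B j :=
    fun k _ j hj i x hx a ha => by rw [cubF, if_neg (by omega), hx a ha]
  have hl := cubC_len (e := (0 : Cb m)) (f := cubF m (n + 1)) (N := n + 1) m
  have hof : ∀ l ∈ cubC (0 : Cb m) (cubF m (n + 1)) (n + 1) m,
      List.ofFn (fun i : Fin (m + 1) => l.getD i 0) = l := fun l h =>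
    List.ext_getElem (by rw [List.length_ofFn, hl l h]) fun i _ h3 => by
      rw [List.getElem_ofFn, List.getD_eq_getElem _ _ h3]
  refine ⟨(cubC (0 : Cb m) (cubF m (n + 1)) (n + 1) m).map fun l i => φ (l.getD i 0),
    fun x hx i j => ?_, fun ψ hψ => ?_, fun s s0 s1 => ?_⟩
  · obtain ⟨l, h2, rfl⟩ := List.mem_map.1 hx
    have h3 : ∀ i : Fin (m + 1), l.getD i 0 ∈ l := fun i => by
      rw [List.getD_eq_getElem _ _ (by rw [hl l h2]; exact i.2)]
      exact List.getElem_mem _
    refine hη ((cubC_diam hN m l h2 _ (h3 i) _ (h3 j)).trans_lt ?_)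
    push_cast
    exact hn
  · rw [List.map_map, ← cubC_bd (e := 0) h0 h1 hA hB m le_rfl
      (fun l => if l.length = m then ψ fun i => φ (l.getD i 0) else 0)
      (if_neg (by simp; omega)) fun l h2 ⟨j, hj, h3⟩ => ?_]
    · congr 1
      refine List.map_congr_left fun l h2 => ?_
      conv_rhs => rw [← hof l h2, lst_D]
      refine Finset.sum_congr rfl fun j _ => ?_
      rw [if_pos List.length_ofFn]
      congr 1
      funext i
      rw [List.getD_eq_getElem (List.ofFn _) _ (by simp), List.getElem_ofFn]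
    · rw [if_pos h2]
      have h4 : ∀ i : Fin m, l.getD i 0 ∈ l := fun i => by
        rw [List.getD_eq_getElem _ _ (by rw [h2]; exact i.2)]
        exact List.getElem_mem _
      exact hψ _ (Fin.rev ⟨j, hj⟩) (h3.imp
        (fun h5 i => ⟨_, h5 _ (h4 i) _ (by rw [Fin.rev_rev]), rfl⟩)
        fun h5 i => ⟨_, h5 _ (h4 i) _ (by rw [Fin.rev_rev]), rfl⟩)
  · rw [List.map_map, ← cubC_one (e := 0) h0 h1 hA hB m le_rfl
      (fun k y => if h : k < m then s (Fin.rev ⟨k, h⟩) (φ y) else 0)
      (fun j hj x hx => by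
        rw [dif_pos hj]
        exact s0 _ _ ⟨x, hx _ (by rw [Fin.rev_rev]), rfl⟩)
      fun j hj x hx => by
        rw [dif_pos hj]
        exact s1 _ _ ⟨x, hx _ (by rw [Fin.rev_rev]), rfl⟩]
    congr 1
    refine List.map_congr_left fun l h2 => ?_
    conv_rhs => rw [← hof l h2, lst_B]
    refine Finset.prod_congr rfl fun i _ => ?_
    simp only [dif_pos i.rev.2, Fin.eta, Fin.rev_rev]

theorem cubeOrd_le_homOrd {X : Type} [MetricSpace X] (𝒰 : Set (Set X)) :
    cubeOrd 𝒰 ≤ homOrd 𝒰 := by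
  refine iSup_le fun m => iSup₂_le fun φ hφ => ?_
  rcases Nat.eq_zero_or_pos m with rfl | hm
  · simp
  refine le_iSup_of_le m (le_iSup_of_le (fun i => φ '' {s | s i = 0})
    (le_iSup_of_le (fun i => φ '' {s | s i = 1}) (le_iSup₂_of_le ?_ (cube_ess hm φ) le_rfl)))
  rintro U hU i _ ⟨s, hs, rfl⟩ _ ⟨t, ht, rfl⟩
  exact hφ U hU i s t hs ht

end Vale.Agent.P093
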