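import Vale.Agent.P093E.Main
import Vale.Agent.P093E.Cub
import Vale.Agent.P093.Gen

open Vale.Agent.P093
open scoped ENNReal

theorem Vale.Agent.P093.hom_result
    (X : Type) [MetricSpace X] [CompactSpace X] [Infinite X] (h : X ≃ₜ X)
    (hmin : ∀ x, Dense (Set.range fun n : ℤ => (h ^ n) x)) :
    (∀ 𝒰 : Set (Set X), cubeOrd 𝒰 ≤ homOrd 𝒰) ∧
    ((∀ 𝒰, IsCover 𝒰 → ∀ η : ℝ≥0∞, 0 < η → ∃ 𝒱, IsCover 𝒱 ∧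
      ordRate h 𝒰 ≤ homRate h 𝒱 + η ∧ ordRate h 𝒱 ≤ homRate h 𝒱 + η) →
    mdim h / 2 ≤ rcGen (gens h)) :=
  ⟨cubeOrd_le_homOrd, hom_main hmin⟩
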